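import Vale.Agent.P268.T.H69.End
import Vale.Agent.P268.T.H500.Stage
import Vale.Agent.P268.T.H5.StageIb
import Vale.Agent.P268.T.H73.StageI
import Vale.Agent.P268.T.H830.StepD
import Vale.Agent.P268.T.H830.TurnPlanar

/-!
# P268, topological half, route V: planar families, the stages I, A, B, C
-/

set_option linter.unusedSectionVars false

namespace Vale.Agent.P268.T

open Set Filter Topology

theorem isP1_P1 : IsP1 P1 := ⟨fun _ hT => P1_incBi hT, fun _ hT => P1_add hT, fun _ hT => P1_cen hT⟩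

/-- The real part of `pol`. -/
theorem pol_re (f : ℝ → ℂ) (z : ℂ) : (pol f z).re = ‖z‖ * (f (Complex.arg z)).re := by
  rw [pol, Complex.smul_re, smul_eq_mul]

/-- **Stages given by loops.** -/
theorem stage_of_turn {N : ℕ} {P : ℕ → ℝ → ℝ → ℝ} {f : ℕ → ℝ → ℝ → ℂ}
    (h : ∀ A, 2 ≤ A → A ≤ N → TurnData A (f A) (P A)) :
    Stage N P (fun a T t θ => mark a T (P T t θ)) (fun a t => pol (f a t))
      (fun a => realG (a + 1) (f (a + 1)) (P (a + 1))) where
  Pcont A h2 hN := (h A h2 hN).Pcont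
  Pper A h2 hN := (h A h2 hN).Pper
  mark a T h2 haT hT :=
    MarkData.of_mark (by omega) (h T (by omega) hT).Pcont (h T (by omega) hT).Pper
  first a h2 hN := (h a h2 hN.le).fam.hFam
  first_neg a h2 hN t ht z hz hd := by
    rw [pol_re]
    exact mul_neg_of_pos_of_neg (norm_pos_iff.mpr hz) ((h a h2 hN.le).neg t ht _ hd)
  planar a h2 hN := ⟨1, (h (a + 1) (by omega) hN).xplanar (by omega)⟩
  neg a h2 hN t ht z hz hd q hq := (h (a + 1) (by omega) hN).realG_neg ht hz hd hq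

/-! ### Stage I -/

/-- **Stage I**: from the circle gate to the real gate. -/
theorem stageI (N : ℕ) : Stage N (fun A _ => P0 A) (fun a T => H5.XI a T)
    (fun a _ => pol (fun θ => eP (P0 a θ))) (fun a => H73.stI a) where
  Pcont A _ _ := (continuous_P0 A).comp continuous_snd
  Pper A _ _ _ θ := P0_add A θ
  mark a T _ haT _ := H5.markData_XI haT
  first a h2 _ := by
    have h1 := (turnData_A h2).fam.hFam.param (s' := Icc (0 : ℝ) 1) (φ := fun _ => (0 : ℝ))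
      continuousOn_const (fun _ _ => left_mem_Icc.mpr zero_le_one)
    have e : (fun _ : ℝ => pol (fun θ => eP ((1 - 0) * P0 a θ + 0 * P1 a θ))) =
        fun _ : ℝ => pol (fun θ => eP (P0 a θ)) := by
      simp
    rw [e] at h1
    exact h1
  first_neg a h2 _ t _ z hz hd := by
    rw [pol_re]
    exact mul_neg_of_pos_of_neg (norm_pos_iff.mpr hz) (cos_neg_of_dZ hd)
  planar a _ _ := ⟨1, (H73.planar_stI a).toX⟩
  neg a _ _ t ht z hz hd q hq := H73.stI_neg ht hz hd hq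

/-- Start of stage I: the first variable. -/
theorem stageI_first (a : ℕ) (z : ℂ) :
    pol (fun θ => eP (P0 a θ)) z = ((‖z‖ : ℝ) : ℂ) * RV.eI (RV.Sph a z) := by
  have h1 : RV.eI (RV.Sph a z) = RV.eI (RV.prof a (Complex.arg z)) := by
    rw [RV.Sph, RV.eI, RV.eI]
    have : Complex.I * ((RV.prof a (Complex.arg z) - 2 * Real.pi : ℝ) : ℂ) =
        Complex.I * (RV.prof a (Complex.arg z) : ℝ) - 2 * Real.pi * Complex.I := by
      push_cast; ring
    rw [this, Complex.exp_periodic.sub_eq]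
  rw [pol, eP_P0, h1, Complex.real_smul]

/-! ### Stage A -/

/-- **Stage A**: from the profiles to the rays. -/
theorem stageA (N : ℕ) : Stage N (fun A t θ => (1 - t) * P0 A θ + t * P1 A θ)
    (fun a T t θ => mark a T ((1 - t) * P0 T θ + t * P1 T θ))
    (fun a t => pol (fun θ => eP ((1 - t) * P0 a θ + t * P1 a θ)))
    (fun a => realG (a + 1) (fun t θ => eP ((1 - t) * P0 (a + 1) θ + t * P1 (a + 1) θ))
      (fun t θ => (1 - t) * P0 (a + 1) θ + t * P1 (a + 1) θ)) :=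
  stage_of_turn fun _ h2 _ => turnData_A h2

/-! ### The constants -/

/-- The constant of stage C. -/
noncomputable def cC (A : ℕ) : ℝ := if h : 2 ≤ A then (turnData_C h).choose else 0

theorem cC_nonneg (A : ℕ) : 0 ≤ cC A := by
  unfold cC
  split_ifs with h
  · exact (turnData_C h).choose_spec.1
  · exact le_rfl

theorem cC_lt_one (A : ℕ) : cC A < 1 := by
  unfold cC
  split_ifs with h
  · exact (turnData_C h).choose_spec.2.1
  · exact one_pos

/-- The rays of a variable with `A` turns. -/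
def KA69 (A : ℕ) (i : Fin (A - 2 + 1)) (_ : Fin 1) : ℕ := i

theorem exists_KA {A : ℕ} (hA : 2 ≤ A) (k : ℕ) : (∃ i, KA69 A i 0 = k) ↔ k + 1 < A := by
  constructor
  · rintro ⟨i, rfl⟩
    have := i.2
    show (i : ℕ) + 1 < A
    omega
  · intro h
    exact ⟨⟨k, by omega⟩, rfl⟩

theorem turnData_KA {A : ℕ} (hA : 2 ≤ A) : ∃ ε₁ : ℝ, 0 < ε₁ ∧ ∀ ε ∈ Ioc 0 ε₁,
    TurnData A (fun t θ => (1 - t) • (eP (P1 A θ) - ((cC A : ℝ) : ℂ)) + t • gS ε (KA69 A) θ)
      (fun _ => P1 A) := by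
  have h1 : cC A = (turnData_C hA).choose := dif_pos hA
  obtain ⟨ε₁, h2, h3⟩ := (turnData_C hA).choose_spec.2.2
  refine ⟨ε₁, h2, fun ε hε => ?_⟩
  rw [h1]
  exact h3 ε hε _ (KA69 A) (exists_KA hA)

theorem turnData_KA_le (N : ℕ) : ∃ ε₁ : ℝ, 0 < ε₁ ∧ ∀ ε ∈ Ioc 0 ε₁, ∀ A, 2 ≤ A → A ≤ N →
    TurnData A (fun t θ => (1 - t) • (eP (P1 A θ) - ((cC A : ℝ) : ℂ)) + t • gS ε (KA69 A) θ)
      (fun _ => P1 A) := by
  induction N with
  | zero => exact ⟨1, one_pos, fun ε _ A h2 h3 => absurd h3 (by omega)⟩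
  | succ N ih =>
    obtain ⟨e, he, hN⟩ := ih
    by_cases hN2 : 2 ≤ N + 1
    · obtain ⟨e', he', hN'⟩ := turnData_KA hN2
      refine ⟨min e e', lt_min he he', fun ε hε A h2 h3 => ?_⟩
      rcases h3.lt_or_eq with h4 | h4
      · exact hN ε ⟨hε.1, hε.2.trans (min_le_left _ _)⟩ A h2 (by omega)
      · rw [h4]
        exact hN' ε ⟨hε.1, hε.2.trans (min_le_right _ _)⟩
    · exact ⟨e, he, fun ε _ A h2 h3 => absurd (h2.trans h3) hN2⟩

/-! ### Stages B and C -/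

/-- **Stage B**: shrinking of the windows. -/
theorem stageB (N : ℕ) : Stage N (fun A _ => P1 A) (fun a T _ θ => mark a T (P1 T θ))
    (fun a t => pol (fun θ => eP (P1 a θ) - ((t * cC a : ℝ) : ℂ)))
    (fun a => realG (a + 1) (fun t θ => eP (P1 (a + 1) θ) - ((t * cC (a + 1) : ℝ) : ℂ))
      (fun _ => P1 (a + 1))) :=
  stage_of_turn (f := fun a t θ => eP (P1 a θ) - ((t * cC a : ℝ) : ℂ))
    fun A h2 _ => turnData_B h2 (cC_nonneg A) (cC_lt_one A)

/-- The statement of stage C. -/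
def StageC (N : ℕ) (ε : ℝ) : Prop :=
  Stage N (fun A _ => P1 A) (fun a T _ θ => mark a T (P1 T θ))
    (fun a t => pol (fun θ => (1 - t) • (eP (P1 a θ) - ((cC a : ℝ) : ℂ)) + t • gS ε (KA69 a) θ))
    (fun a => realG (a + 1) (fun t θ => (1 - t) • (eP (P1 (a + 1) θ) - ((cC (a + 1) : ℝ) : ℂ)) +
      t • gS ε (KA69 (a + 1)) θ) (fun _ => P1 (a + 1)))

/-- **Stage C**: the straight path to the rays. -/
theorem stageC (N : ℕ) : ∃ ε₁ : ℝ, 0 < ε₁ ∧ ∀ ε ∈ Ioc 0 ε₁, StageC N ε := by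
  obtain ⟨ε₁, h1, h2⟩ := turnData_KA_le N
  exact ⟨ε₁, h1, fun ε hε => stage_of_turn
    (f := fun a t θ => (1 - t) • (eP (P1 a θ) - ((cC a : ℝ) : ℂ)) + t • gS ε (KA69 a) θ)
    (P := fun a _ => P1 a) (h2 ε hε)⟩

/-- The literal ray function. -/
theorem FS1_KA {ε : ℝ} (A : ℕ) (z : ℂ) : FS1 ε (KA69 A) z = ⟨rm ε (A - 2) z, turn z⟩ := by
  apply Complex.ext
  · rw [FS1_re]
    show _ = rm ε (A - 2) z
    rw [rm_eq_sup']
    apply le_antisymm
    · refine Finset.sup'_le _ _ fun i _ => ?_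
      have h1 : KA69 A i 0 = (i : ℕ) := rfl
      rw [h1]
      exact Finset.le_sup' (fun k => ray ε k z) (Finset.mem_range.mpr i.2)
    · refine Finset.sup'_le _ _ fun k hk => ?_
      have h1 : KA69 A ⟨k, Finset.mem_range.mp hk⟩ 0 = k := rfl
      have h2 := Finset.le_sup' (fun i : Fin (A - 2 + 1) => ray ε (KA69 A i 0) z)
        (Finset.mem_univ (⟨k, Finset.mem_range.mp hk⟩ : Fin (A - 2 + 1)))
      simp only [h1] at h2
      exact h2
  · rw [FS1_im]

theorem r1_eq_rm {ε : ℝ} {a : ℕ} (ha : 2 ≤ a) (z : ℂ) : RV.r1 ε a z = rm ε (a - 2) z := by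
  have e : a - 1 = a - 2 + 1 := by omega
  have h1 : (Finset.range (a - 1)).Nonempty := ⟨0, Finset.mem_range.mpr (by omega)⟩
  rw [RV.r1, dif_pos h1, rm_eq_sup']
  simp only [e]

theorem rayFirst_eq {ε : ℝ} {a : ℕ} (ha : 2 ≤ a) (z : ℂ) :
    RV.rayFirst ε a z = pol (gS ε (KA69 a)) z := by
  rw [pol_gS, FS1_KA, RV.rayFirst, r1_eq_rm ha]

/-! ### The ends of the families -/

section Ends

variable (a T : ℕ) (q : ℝ) (z : ℂ) (θ : ℝ)

theorem realG_congr {A : ℕ} {f f' : ℝ → ℝ → ℂ} {P P' : ℝ → ℝ → ℝ} {t t' : ℝ}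
    (hf : ∀ θ, f t θ = f' t' θ) (hP : ∀ θ, P t θ = P' t' θ) (q : ℝ) (z : ℂ) :
    realG A f P t q z = realG A f' P' t' q z := by
  rw [realG, realG, pol, pol, hf, hP]

theorem pol_congr {f f' : ℝ → ℂ} (hf : ∀ θ, f θ = f' θ) (z : ℂ) : pol f z = pol f' z := by
  rw [pol, pol, hf]

theorem endI_gate : H73.stI a 1 q z =
    realG (a + 1) (fun t θ => eP ((1 - t) * P0 (a + 1) θ + t * P1 (a + 1) θ))
      (fun t θ => (1 - t) * P0 (a + 1) θ + t * P1 (a + 1) θ) 0 q z := by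
  rw [H73.stI_one]
  exact realG_congr (fun θ => by simp) (fun θ => by simp) q z

theorem endI_first : pol (fun θ => eP (P0 a θ)) z =
    pol (fun θ => eP ((1 - 0) * P0 a θ + 0 * P1 a θ)) z :=
  pol_congr (fun θ => by simp) z

theorem endI_mark : H5.XI a T 1 θ = mark a T ((1 - 0) * P0 T θ + 0 * P1 T θ) := by
  rw [H5.XI_one]; simp

theorem endA_gate : realG (a + 1) (fun t θ => eP ((1 - t) * P0 (a + 1) θ + t * P1 (a + 1) θ))
      (fun t θ => (1 - t) * P0 (a + 1) θ + t * P1 (a + 1) θ) 1 q z =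
    realG (a + 1) (fun t θ => eP (P1 (a + 1) θ) - ((t * cC (a + 1) : ℝ) : ℂ))
      (fun _ => P1 (a + 1)) 0 q z :=
  realG_congr (fun θ => by simp) (fun θ => by simp) q z

theorem endA_first : pol (fun θ => eP ((1 - 1) * P0 a θ + 1 * P1 a θ)) z =
    pol (fun θ => eP (P1 a θ) - (((0 : ℝ) * cC a : ℝ) : ℂ)) z :=
  pol_congr (fun θ => by simp) z

theorem endA_mark : mark a T ((1 - 1) * P0 T θ + 1 * P1 T θ) = mark a T (P1 T θ) := by
  simp

theorem endB_gate (ε : ℝ) :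
    realG (a + 1) (fun t θ => eP (P1 (a + 1) θ) - ((t * cC (a + 1) : ℝ) : ℂ))
      (fun _ => P1 (a + 1)) 1 q z =
    realG (a + 1) (fun t θ => (1 - t) • (eP (P1 (a + 1) θ) - ((cC (a + 1) : ℝ) : ℂ)) +
      t • gS ε (KA69 (a + 1)) θ) (fun _ => P1 (a + 1)) 0 q z := by
  apply realG_congr
  · intro θ
    simp
  · intro θ
    rfl

theorem endB_first (ε : ℝ) : pol (fun θ => eP (P1 a θ) - (((1 : ℝ) * cC a : ℝ) : ℂ)) z =
    pol (fun θ => (1 - (0 : ℝ)) • (eP (P1 a θ) - ((cC a : ℝ) : ℂ)) +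
      (0 : ℝ) • gS ε (KA69 a) θ) z :=
  pol_congr (fun θ => by simp) z

theorem endC_gate (ε : ℝ) :
    realG (a + 1) (fun t θ => (1 - t) • (eP (P1 (a + 1) θ) - ((cC (a + 1) : ℝ) : ℂ)) +
      t • gS ε (KA69 (a + 1)) θ) (fun _ => P1 (a + 1)) 1 q z =
    realG (a + 1) (fun _ => gS ε (KA69 (a + 1))) (fun _ => P1 (a + 1)) 0 q z := by
  apply realG_congr
  · intro θ
    simp
  · intro θ
    rfl

theorem endC_first (ε : ℝ) : pol (fun θ => (1 - (1 : ℝ)) • (eP (P1 a θ) - ((cC a : ℝ) : ℂ)) +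
      (1 : ℝ) • gS ε (KA69 a) θ) z = pol (gS ε (KA69 a)) z :=
  pol_congr (fun θ => by simp) z

end Ends

end Vale.Agent.P268.T
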