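import Vale.Agent.P268.T.H69.Defs

/-!
# P268, topological half, route V: planar families, the index functions

Facts on `dZ`, `mark`, `eta` and on the index function `P0` of the profiles.
-/

set_option linter.unusedSectionVars false

namespace Vale.Agent.P268.T

open Set Filter Topology

/-! ### The distance from the integers -/

theorem dZ_eq (x : ℝ) : dZ x = ‖(x : UnitAddCircle)‖ := (UnitAddCircle.norm_eq).symm

theorem continuous_dZ : Continuous dZ := by
  have h1 : dZ = fun x : ℝ => ‖(x : UnitAddCircle)‖ := funext dZ_eq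
  rw [h1]
  exact (AddCircle.continuous_mk' 1).norm

theorem dZ_nonneg (x : ℝ) : 0 ≤ dZ x := abs_nonneg _

theorem dZ_le_half (x : ℝ) : dZ x ≤ 1 / 2 := abs_sub_round x

theorem dZ_le (x : ℝ) (n : ℤ) : dZ x ≤ |x - n| := round_le x n

theorem dZ_add_int (x : ℝ) (n : ℤ) : dZ (x + n) = dZ x := by
  rw [dZ, dZ, round_add_intCast]
  push_cast
  congr 1
  ring

theorem dZ_sub_int (x : ℝ) (n : ℤ) : dZ (x - n) = dZ x := by
  have := dZ_add_int (x - n) n
  rw [sub_add_cancel] at this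
  exact this.symm

theorem dZ_neg (x : ℝ) : dZ (-x) = dZ x := by
  apply le_antisymm
  · have := dZ_le (-x) (-round x)
    push_cast at this
    rw [show -x - -(round x : ℝ) = -(x - round x) by ring, abs_neg] at this
    exact this
  · have := dZ_le x (-round (-x))
    push_cast at this
    rw [show x - -(round (-x) : ℝ) = -(-x - round (-x)) by ring, abs_neg] at this
    exact this

/-- Criterion for the lower bound. -/
theorem le_dZ {x r : ℝ} (h : ∀ n : ℤ, r ≤ |x - n|) : r ≤ dZ x := h _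

theorem dZ_ge_of_mem {x : ℝ} (h1 : 3 / 10 ≤ x) (h2 : x ≤ 7 / 10) : 3 / 10 ≤ dZ x := by
  refine le_dZ fun n => ?_
  rcases le_or_gt n 0 with hn | hn
  · have : (n : ℝ) ≤ 0 := by exact_mod_cast hn
    exact le_trans (by linarith) (le_abs_self _)
  · have : (1 : ℝ) ≤ n := by exact_mod_cast hn
    exact le_trans (by linarith) (neg_le_abs _)

theorem exists_int_of_dZ_lt {x r : ℝ} (h : dZ x < r) : ∃ n : ℤ, |x - n| < r := ⟨_, h⟩

/-! ### The clamp -/

theorem continuous_clamp01 : Continuous RV.clamp01 := by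
  unfold RV.clamp01
  fun_prop

theorem clamp01_nonneg (s : ℝ) : 0 ≤ RV.clamp01 s := le_max_left _ _

theorem clamp01_le_one (s : ℝ) : RV.clamp01 s ≤ 1 :=
  max_le zero_le_one (min_le_right _ _)

theorem clamp01_of_le {s : ℝ} (h : s ≤ 0) : RV.clamp01 s = 0 :=
  max_eq_left ((min_le_left _ _).trans h)

theorem clamp01_of_ge {s : ℝ} (h : 1 ≤ s) : RV.clamp01 s = 1 := by
  rw [RV.clamp01, min_eq_right h, max_eq_right zero_le_one]

theorem clamp01_of_mem' {s : ℝ} (h0 : 0 ≤ s) (h : s ≤ 1) : RV.clamp01 s = s := by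
  rw [RV.clamp01, min_eq_left h, max_eq_right h0]

theorem clamp01_lip (s t : ℝ) : |RV.clamp01 s - RV.clamp01 t| ≤ |s - t| := by
  rw [RV.clamp01, RV.clamp01]
  calc |max 0 (min s 1) - max 0 (min t 1)| ≤ |min s 1 - min t 1| := by
        have := abs_max_sub_max_le_abs (min s 1) (min t 1) 0
        rwa [max_comm (min s 1) 0, max_comm (min t 1) 0] at this
    _ ≤ max |s - t| |1 - 1| := abs_min_sub_min_le_max s 1 t 1
    _ = |s - t| := by rw [sub_self, abs_zero, max_eq_left (abs_nonneg _)]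

/-! ### The distance from a progression -/

/-- The distance from `b + Aℤ`. -/
noncomputable def dP (A : ℕ) (b p : ℝ) : ℝ := A * dZ ((p - b) / A)

theorem continuous_dP (A : ℕ) (b : ℝ) : Continuous (dP A b) := by
  unfold dP
  have := continuous_dZ
  fun_prop

theorem dP_add {A : ℕ} (hA : 0 < A) (b p : ℝ) (n : ℤ) : dP A b (p + n * A) = dP A b p := by
  have hA' : (A : ℝ) ≠ 0 := by exact_mod_cast hA.ne'
  rw [dP, dP]
  congr 1
  have : (p + n * A - b) / A = (p - b) / A + n := by field_simp; ring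
  rw [this, dZ_add_int]

theorem dP_eq {A : ℕ} (hA : 0 < A) (b p : ℝ) : ∃ n : ℤ, dP A b p = |p - b - A * n| := by
  have hA' : (0 : ℝ) < A := by exact_mod_cast hA
  refine ⟨round ((p - b) / A), ?_⟩
  rw [dP, dZ, ← abs_of_pos hA', ← abs_mul, abs_of_pos hA']
  congr 1
  field_simp

theorem dP_le {A : ℕ} (hA : 0 < A) (b p : ℝ) (n : ℤ) : dP A b p ≤ |p - b - A * n| := by
  have hA' : (0 : ℝ) < A := by exact_mod_cast hA
  have h1 : dP A b p ≤ A * |(p - b) / A - n| := mul_le_mul_of_nonneg_left (dZ_le _ n) hA'.le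
  refine h1.trans (le_of_eq ?_)
  rw [← abs_of_pos hA', ← abs_mul, abs_of_pos hA']
  congr 1
  field_simp

/-- Lower bound. -/
theorem le_dP {A : ℕ} (hA : 0 < A) {b p r : ℝ} (h1 : r ≤ p - b) (h2 : r ≤ b + A - p) :
    r ≤ dP A b p := by
  have hA' : (0 : ℝ) < A := by exact_mod_cast hA
  obtain ⟨n, hn⟩ := dP_eq hA b p
  rw [hn]
  rcases le_or_gt n 0 with h | h
  · have h3 : (n : ℝ) ≤ 0 := by exact_mod_cast h
    have h4 : (A : ℝ) * n ≤ 0 := mul_nonpos_of_nonneg_of_nonpos hA'.le h3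
    exact le_trans (by linarith) (le_abs_self _)
  · have h3 : (1 : ℝ) ≤ n := by exact_mod_cast h
    have h4 : (A : ℝ) * 1 ≤ A * n := mul_le_mul_of_nonneg_left h3 hA'.le
    exact le_trans (by linarith) (neg_le_abs _)

/-! ### The marks -/

theorem mark_eq (a T : ℕ) (p : ℝ) :
    mark a T p = RV.clamp01 ((dP T (a / 2) p - a / 2 - 3 / 10) * (5 / 2)) := rfl

theorem continuous_mark (a T : ℕ) : Continuous (mark a T) := by
  have h1 := continuous_dP T (a / 2)
  have h2 := continuous_clamp01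
  have h3 : mark a T = fun p => RV.clamp01 ((dP T (a / 2) p - a / 2 - 3 / 10) * (5 / 2)) := rfl
  rw [h3]
  fun_prop

theorem mark_add {a T : ℕ} (hT : 0 < T) (p : ℝ) (n : ℤ) : mark a T (p + n * T) = mark a T p := by
  rw [mark_eq, mark_eq, dP_add hT]

theorem mark_nonneg (a T : ℕ) (p : ℝ) : 0 ≤ mark a T p := clamp01_nonneg _

theorem mark_le_one (a T : ℕ) (p : ℝ) : mark a T p ≤ 1 := clamp01_le_one _

theorem mark_lip (a T : ℕ) (hT : 0 < T) (p q : ℝ) : |mark a T p - mark a T q| ≤ 5 / 2 * |p - q| := by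
  have hlip : ∀ p q : ℝ, dP T (a / 2) p - dP T (a / 2) q ≤ |p - q| := fun p q => by
    obtain ⟨n, hn⟩ := dP_eq hT (a / 2) q
    have h1 := dP_le hT (a / 2) p n
    have h2 : |p - a / 2 - T * n| ≤ |p - q| + |q - a / 2 - T * n| := by
      have : p - a / 2 - T * n = (p - q) + (q - a / 2 - T * n) := by ring
      rw [this]; exact abs_add_le _ _
    rw [hn]; linarith
  rw [mark_eq, mark_eq]
  refine (clamp01_lip _ _).trans ?_
  have h1 := hlip p q
  have h2 := hlip q p
  rw [abs_sub_comm q p] at h2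
  have h3 : |dP T (a / 2) p - dP T (a / 2) q| ≤ |p - q| := abs_le.mpr ⟨by linarith, h1⟩
  have e : (dP T (a / 2) p - a / 2 - 3 / 10) * (5 / 2) - (dP T (a / 2) q - a / 2 - 3 / 10) * (5 / 2) =
      5 / 2 * (dP T (a / 2) p - dP T (a / 2) q) := by ring
  rw [e, abs_mul, abs_of_pos (by norm_num : (0 : ℝ) < 5 / 2)]
  exact mul_le_mul_of_nonneg_left h3 (by norm_num)

/-- The three cases. -/
theorem mark_cases {a T : ℕ} (hT : 0 < T) (p : ℝ) :
    (∀ᶠ p' in 𝓝 p, mark a T p' = 0) ∨ 3 / 10 ≤ dZ p ∨ (∀ᶠ p' in 𝓝 p, mark a T p' = 1) := by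
  have hc := (continuous_dP T (a / 2)).continuousAt (x := p)
  rcases lt_or_ge (dP T (a / 2) p) ((a : ℝ) / 2 + 3 / 10) with h1 | h1
  · left
    filter_upwards [hc.eventually (eventually_lt_nhds h1)] with p' hp'
    rw [mark_eq]
    exact clamp01_of_le (by linarith)
  rcases lt_or_ge ((a : ℝ) / 2 + 7 / 10) (dP T (a / 2) p) with h2 | h2
  · right; right
    filter_upwards [hc.eventually (eventually_gt_nhds h2)] with p' hp'
    rw [mark_eq]
    exact clamp01_of_ge (by linarith)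
  right; left
  obtain ⟨n, hn⟩ := dP_eq hT (a / 2) p
  rw [hn] at h1 h2
  rcases le_total 0 (p - a / 2 - T * n) with h3 | h3
  · rw [abs_of_nonneg h3] at h1 h2
    have e1 : dZ p = dZ (p - a - T * n) := by
      have : p - a - T * n = p - ((a + T * n : ℤ) : ℝ) := by push_cast; ring
      rw [this, dZ_sub_int]
    rw [e1]
    exact dZ_ge_of_mem (by linarith) (by linarith)
  · rw [abs_of_nonpos h3] at h1 h2
    have e1 : dZ p = dZ (-(p - T * n)) := by
      rw [dZ_neg]
      have : p - T * n = p - ((T * n : ℤ) : ℝ) := by push_cast; ring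
      rw [this, dZ_sub_int]
    rw [e1]
    exact dZ_ge_of_mem (by linarith) (by linarith)

theorem mark_zero {a T : ℕ} (hT : 0 < T) {p : ℝ} {k : ℕ} (hk : k ≤ a)
    (h : |p - k| ≤ 3 / 10) : mark a T p = 0 := by
  have h1 := dP_le hT (a / 2) p 0
  have h2 : |p - a / 2 - T * (0 : ℤ)| ≤ |p - k| + |(k : ℝ) - a / 2| := by
    have : p - a / 2 - T * (0 : ℤ) = (p - k) + (k - a / 2) := by push_cast; ring
    rw [this]; exact abs_add_le _ _
  have h3 : |(k : ℝ) - a / 2| ≤ a / 2 := by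
    have : (k : ℝ) ≤ a := by exact_mod_cast hk
    have h0 : (0 : ℝ) ≤ k := by positivity
    exact abs_le.mpr ⟨by linarith, by linarith⟩
  rw [mark_eq]
  exact clamp01_of_le (by linarith)

theorem mark_one {a T : ℕ} (hT : 0 < T) {p : ℝ} {k : ℕ} (hk : a < k) (hk' : k < T)
    (h : |p - k| ≤ 3 / 10) : mark a T p = 1 := by
  obtain ⟨h1, h2⟩ := abs_le.mp h
  have k1 : (a : ℝ) + 1 ≤ k := by exact_mod_cast hk
  have k2 : (k : ℝ) + 1 ≤ T := by exact_mod_cast hk'
  have h3 : (a : ℝ) / 2 + 7 / 10 ≤ dP T (a / 2) p := le_dP hT (by linarith) (by linarith)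
  rw [mark_eq]
  exact clamp01_of_ge (by linarith)

/-! ### The last turn -/

theorem eta_eq (A : ℕ) (p : ℝ) : eta A p = 1 - RV.clamp01 ((dP A (-1) p - 3 / 10) * (5 / 2)) := by
  rw [eta, dP, sub_neg_eq_add]

theorem continuous_eta (A : ℕ) : Continuous (eta A) := by
  have h1 := continuous_dP A (-1)
  have h2 := continuous_clamp01
  have h3 : eta A = fun p => 1 - RV.clamp01 ((dP A (-1) p - 3 / 10) * (5 / 2)) := funext (eta_eq A)
  rw [h3]
  fun_prop

theorem eta_add {A : ℕ} (hA : 0 < A) (p : ℝ) (n : ℤ) : eta A (p + n * A) = eta A p := by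
  rw [eta_eq, eta_eq, dP_add hA]

theorem eta_nonneg (A : ℕ) (p : ℝ) : 0 ≤ eta A p := by
  rw [eta_eq]; linarith [clamp01_le_one ((dP A (-1) p - 3 / 10) * (5 / 2))]

theorem eta_le_one (A : ℕ) (p : ℝ) : eta A p ≤ 1 := by
  rw [eta_eq]; linarith [clamp01_nonneg ((dP A (-1) p - 3 / 10) * (5 / 2))]

theorem eta_lip (A : ℕ) (hA : 0 < A) (p q : ℝ) : |eta A p - eta A q| ≤ 5 / 2 * |p - q| := by
  have hlip : ∀ p q : ℝ, dP A (-1) p - dP A (-1) q ≤ |p - q| := fun p q => by
    obtain ⟨n, hn⟩ := dP_eq hA (-1) q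
    have h1 := dP_le hA (-1) p n
    have h2 : |p - -1 - A * n| ≤ |p - q| + |q - -1 - A * n| := by
      have : p - -1 - A * n = (p - q) + (q - -1 - A * n) := by ring
      rw [this]; exact abs_add_le _ _
    rw [hn]; linarith
  rw [eta_eq, eta_eq, sub_sub_sub_cancel_left]
  refine (clamp01_lip _ _).trans ?_
  have h1 := hlip p q
  have h2 := hlip q p
  rw [abs_sub_comm q p] at h2
  have h3 : |dP A (-1) q - dP A (-1) p| ≤ |p - q| := abs_le.mpr ⟨by linarith, by linarith⟩
  have e : (dP A (-1) q - 3 / 10) * (5 / 2) - (dP A (-1) p - 3 / 10) * (5 / 2) =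
      5 / 2 * (dP A (-1) q - dP A (-1) p) := by ring
  rw [e, abs_mul, abs_of_pos (by norm_num : (0 : ℝ) < 5 / 2)]
  exact mul_le_mul_of_nonneg_left h3 (by norm_num)

theorem eta_cases {A : ℕ} (hA : 0 < A) (p : ℝ) :
    (∀ᶠ p' in 𝓝 p, eta A p' = 0) ∨ 3 / 10 ≤ dZ p ∨ (∀ᶠ p' in 𝓝 p, eta A p' = 1) := by
  have hc := (continuous_dP A (-1)).continuousAt (x := p)
  rcases lt_or_ge (dP A (-1) p) ((3 : ℝ) / 10) with h1 | h1
  · right; right
    filter_upwards [hc.eventually (eventually_lt_nhds h1)] with p' hp'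
    rw [eta_eq, clamp01_of_le (by linarith), sub_zero]
  rcases lt_or_ge ((7 : ℝ) / 10) (dP A (-1) p) with h2 | h2
  · left
    filter_upwards [hc.eventually (eventually_gt_nhds h2)] with p' hp'
    rw [eta_eq, clamp01_of_ge (by linarith), sub_self]
  right; left
  obtain ⟨n, hn⟩ := dP_eq hA (-1) p
  rw [hn] at h1 h2
  have e0 : dZ p = dZ (p - -1 - A * n) := by
    have : p - -1 - A * n = p - ((-1 + A * n : ℤ) : ℝ) := by push_cast; ring
    rw [this, dZ_sub_int]
  rcases le_total 0 (p - -1 - A * n) with h3 | h3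
  · rw [abs_of_nonneg h3] at h1 h2
    rw [e0]
    exact dZ_ge_of_mem (by linarith) (by linarith)
  · rw [abs_of_nonpos h3] at h1 h2
    rw [e0, ← dZ_neg]
    exact dZ_ge_of_mem (by linarith) (by linarith)

theorem eta_one {A : ℕ} (hA : 0 < A) {p : ℝ} {k : ℕ} (hk : k + 1 = A)
    (h : |p - k| ≤ 3 / 10) : eta A p = 1 := by
  have h1 := dP_le hA (-1) p 1
  have h2 : p - -1 - A * (1 : ℤ) = p - k := by
    have : (A : ℝ) = k + 1 := by rw [← hk]; push_cast; ring
    rw [this]; push_cast; ring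
  rw [h2] at h1
  rw [eta_eq, clamp01_of_le (by linarith), sub_zero]

theorem eta_zero {A : ℕ} (hA : 0 < A) {p : ℝ} {k : ℕ} (hk : k + 1 < A)
    (h : |p - k| ≤ 3 / 10) : eta A p = 0 := by
  obtain ⟨h1, h2⟩ := abs_le.mp h
  have k0 : (0 : ℝ) ≤ k := by positivity
  have k1 : (k : ℝ) + 1 + 1 ≤ A := by exact_mod_cast hk
  have h3 : (7 : ℝ) / 10 ≤ dP A (-1) p := le_dP hA (by linarith) (by linarith)
  rw [eta_eq, clamp01_of_ge (by linarith), sub_self]

/-! ### The loop `e^{2πip}` -/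

theorem eP_add_int (p : ℝ) (n : ℤ) : eP (p + n) = eP p := by
  rw [eP, eP]
  have : 2 * Real.pi * (p + n) = 2 * Real.pi * p + n * (2 * Real.pi) := by ring
  rw [this, Real.cos_add_int_mul_two_pi, Real.sin_add_int_mul_two_pi]

theorem cos_neg_of_dZ {p : ℝ} (h : 3 / 10 ≤ dZ p) : Real.cos (2 * Real.pi * p) < 0 := by
  have hp := Real.pi_pos
  have h1 : Real.cos (2 * Real.pi * p) = Real.cos |2 * Real.pi * (p - round p)| := by
    rw [Real.cos_abs]
    have : 2 * Real.pi * p = 2 * Real.pi * (p - round p) + (round p : ℤ) * (2 * Real.pi) := by ring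
    rw [this, Real.cos_add_int_mul_two_pi]
  rw [h1, abs_mul, abs_of_pos (by positivity)]
  have h2 : 3 / 10 ≤ |p - round p| := h
  have h3 : |p - round p| ≤ 1 / 2 := abs_sub_round p
  refine Real.cos_neg_of_pi_div_two_lt_of_lt ?_ ?_
  · nlinarith
  · nlinarith

theorem continuous_eP : Continuous eP := by
  have h1 := continuous_mk (f := fun p : ℝ => Real.cos (2 * Real.pi * p))
    (g := fun p : ℝ => Real.sin (2 * Real.pi * p)) (by fun_prop) (by fun_prop)
  exact h1

theorem eP_eq_eI (p : ℝ) : eP p = RV.eI (2 * Real.pi * p) := by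
  rw [RV.eI, mul_comm Complex.I, Complex.exp_mul_I, ← Complex.ofReal_cos, ← Complex.ofReal_sin, eP,
    Complex.mk_eq_add_mul_I]

/-! ### The index function of the profile -/

theorem xc_add (A : ℕ) (θ : ℝ) : RV.xc A (θ + 2 * Real.pi) = RV.xc A θ + (2 * A + 1 : ℤ) := by
  have := Real.pi_pos
  rw [RV.xc, RV.xc]
  push_cast
  field_simp
  ring

/-- The sequence of the breakpoints. -/
noncomputable def cP (A : ℕ) (j : ℤ) : ℝ :=
  A * (j / (2 * A + 1) : ℤ) + (j % (2 * A + 1) / 2 : ℤ) - 1 / 2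

theorem P0_eq (A : ℕ) (θ : ℝ) : P0 A θ = interp (cP A) (RV.xc A θ) := rfl

theorem cP_add (A : ℕ) (j : ℤ) : cP A (j + (2 * A + 1)) = cP A j + A := by
  rw [cP, cP]
  have h1 : (j + (2 * A + 1)) / (2 * A + 1) = j / (2 * (A : ℤ) + 1) + 1 := by
    have := Int.add_mul_ediv_right j 1 (by omega : (2 * (A : ℤ) + 1) ≠ 0)
    rwa [one_mul] at this
  have h2 : (j + (2 * A + 1)) % (2 * A + 1) = j % (2 * (A : ℤ) + 1) := Int.add_emod_right _ _
  rw [h1, h2]
  push_cast
  ring

/-- The sequence, in one period. -/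
theorem cP_of_lt {A : ℕ} {j : ℤ} (h0 : 0 ≤ j) (h1 : j ≤ 2 * A + 1) :
    cP A j = ((j / 2 : ℤ) : ℝ) - 1 / 2 := by
  rcases h1.lt_or_eq with h1 | h1
  · rw [cP, Int.ediv_eq_zero_of_lt h0 h1, Int.emod_eq_of_lt h0 h1]
    push_cast
    ring
  · have h2 := cP_add A 0
    rw [zero_add, ← h1] at h2
    have h3 : cP A 0 = -(1 / 2) := by
      rw [cP]; simp
    rw [h2, h3, h1]
    have h4 : (2 * (A : ℤ) + 1) / 2 = A := by omega
    rw [h4]
    push_cast
    ring

theorem cP_step (A : ℕ) (j : ℤ) : cP A (j + 1) = cP A j ∨ cP A (j + 1) = cP A j + 1 := by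
  have hA : (0 : ℤ) < 2 * A + 1 := by omega
  set q := j / (2 * (A : ℤ) + 1) with hq
  set r := j % (2 * (A : ℤ) + 1) with hr
  have hj : j = r + q * (2 * A + 1) := by
    have := Int.emod_add_mul_ediv j (2 * (A : ℤ) + 1)
    rw [← hr, ← hq] at this
    linarith
  have hr0 : 0 ≤ r := Int.emod_nonneg _ hA.ne'
  have hr1 : r < 2 * A + 1 := Int.emod_lt_of_pos _ hA
  have key : ∀ (i q : ℤ), cP A (i + q * (2 * A + 1)) = cP A i + q * A := by
    intro i q
    rw [cP, cP, Int.add_mul_ediv_right _ _ hA.ne', Int.add_mul_emod_self_right]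
    push_cast
    ring
  have e1 : cP A j = cP A r + q * A := by conv_lhs => rw [hj]
                                          exact key r q
  have e2 : cP A (j + 1) = cP A (r + 1) + q * A := by
    have : j + 1 = (r + 1) + q * (2 * A + 1) := by rw [hj]; ring
    rw [this]
    exact key (r + 1) q
  rw [e1, e2, cP_of_lt hr0 hr1.le, cP_of_lt (by omega) (by omega)]
  rcases Int.even_or_odd' r with ⟨m, hm | hm⟩
  · left
    have h3 : (r + 1) / 2 = r / 2 := by omega
    rw [h3]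
  · right
    have h3 : (r + 1) / 2 = r / 2 + 1 := by omega
    rw [h3]
    push_cast
    ring

theorem interp_add_id (c : ℤ → ℝ) (s : ℝ) : interp (fun j => c j + j) s = interp c s + s := by
  rw [interp, interp]
  have := Int.self_sub_floor s
  push_cast
  nlinarith

theorem interp_cP_incr (A : ℕ) {x y : ℝ} (hxy : x ≤ y) :
    0 ≤ interp (cP A) y - interp (cP A) x ∧ interp (cP A) y - interp (cP A) x ≤ y - x := by
  have h1 : IncBi 1 2 (interp fun j => cP A j + j) := by
    refine interp_incBi one_pos fun j => ?_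
    push_cast
    rcases cP_step A j with h | h <;> rw [h] <;> constructor <;> linarith
  obtain ⟨h2, h3⟩ := h1.2 x y hxy
  rw [interp_add_id, interp_add_id] at h2 h3
  constructor <;> linarith

theorem P0_incr (A : ℕ) {x y : ℝ} (hxy : x ≤ y) :
    0 ≤ P0 A y - P0 A x ∧ P0 A y - P0 A x ≤ (2 * A + 1) / (2 * Real.pi) * (y - x) := by
  have hp := Real.pi_pos
  have e : RV.xc A y - RV.xc A x = (2 * A + 1) / (2 * Real.pi) * (y - x) := by
    rw [RV.xc, RV.xc]; ring
  have h0 : 0 ≤ (2 * A + 1) / (2 * Real.pi) * (y - x) :=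
    mul_nonneg (by positivity) (by linarith)
  have h1 := interp_cP_incr A (x := RV.xc A x) (y := RV.xc A y) (by linarith)
  rw [P0_eq, P0_eq, ← e]
  exact h1

theorem P0_lip (A : ℕ) (x y : ℝ) :
    |P0 A x - P0 A y| ≤ (2 * A + 1) / (2 * Real.pi) * |x - y| := by
  rcases le_total x y with h | h
  · obtain ⟨h1, h2⟩ := P0_incr A h
    rw [abs_sub_comm, abs_of_nonneg h1, abs_sub_comm, abs_of_nonneg (by linarith)]
    exact h2
  · obtain ⟨h1, h2⟩ := P0_incr A h
    rw [abs_of_nonneg h1, abs_of_nonneg (by linarith)]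
    exact h2

theorem continuous_P0 (A : ℕ) : Continuous (P0 A) := by
  have hp := Real.pi_pos
  have : LipschitzWith ⟨(2 * A + 1) / (2 * Real.pi), by positivity⟩ (P0 A) := by
    refine LipschitzWith.of_dist_le_mul fun x y => ?_
    rw [Real.dist_eq, Real.dist_eq]
    exact P0_lip A x y
  exact this.continuous

theorem P0_add (A : ℕ) (θ : ℝ) : P0 A (θ + 2 * Real.pi) = P0 A θ + A := by
  rw [P0_eq, P0_eq, xc_add]
  exact interp_add (fun j => cP_add A j) _

/-- The sum in the profile. -/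
theorem interp_cP_eq {A : ℕ} {x : ℝ} (h0 : 0 ≤ x) (h1 : x ≤ 2 * A + 1) :
    interp (cP A) x = ∑ k ∈ Finset.range A, RV.clamp01 (x - (2 * k + 1)) - 1 / 2 := by
  -- the value of the sum
  have hsum : ∀ m : ℕ, m ≤ A → ∑ k ∈ Finset.range A, (if k < m then (1 : ℝ) else 0) = m := by
    intro m hm
    rw [Finset.sum_boole]
    congr 1
    have : (Finset.range A).filter (fun k => k < m) = Finset.range m := by
      ext k
      simp only [Finset.mem_filter, Finset.mem_range]
      omega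
    rw [this, Finset.card_range]
  have hf0 : 0 ≤ ⌊x⌋ := Int.floor_nonneg.mpr h0
  have hf1 : (⌊x⌋ : ℝ) ≤ x := Int.floor_le x
  have hf2 : x < ⌊x⌋ + 1 := Int.lt_floor_add_one x
  have hfr := Int.self_sub_floor x
  obtain ⟨j, hj⟩ := Int.eq_ofNat_of_zero_le hf0
  have hjA : (j : ℝ) ≤ 2 * A + 1 := by
    have : (⌊x⌋ : ℝ) = j := by rw [hj]; simp
    linarith
  have hjA' : j ≤ 2 * A + 1 := by exact_mod_cast hjA
  have hx1 : (j : ℝ) ≤ x := by
    have : (⌊x⌋ : ℝ) = j := by rw [hj]; simp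
    linarith
  have hx2 : x < j + 1 := by
    have : (⌊x⌋ : ℝ) = j := by rw [hj]; simp
    linarith
  rcases hjA'.lt_or_eq with hlt | heq
  · rw [interp, hj]
    have e1 : cP A ((j : ℕ) : ℤ) = (((j : ℤ) / 2 : ℤ) : ℝ) - 1 / 2 :=
      cP_of_lt (by omega) (by omega)
    have e2 : cP A (((j : ℕ) : ℤ) + 1) = ((((j : ℤ) + 1) / 2 : ℤ) : ℝ) - 1 / 2 :=
      cP_of_lt (by omega) (by omega)
    rw [e1, e2]
    have hfr' : Int.fract x = x - j := by
      rw [← hfr, hj]; simp
    rw [hfr']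
    obtain ⟨m, hm⟩ := Nat.even_or_odd' j
    rcases hm with hm | hm
    · have g1 : ((j : ℤ) / 2 : ℤ) = m := by omega
      have g2 : (((j : ℤ) + 1) / 2 : ℤ) = m := by omega
      rw [g1, g2]
      have hmr : (j : ℝ) = 2 * m := by rw [hm]; push_cast; ring
      have : ∀ k ∈ Finset.range A, RV.clamp01 (x - (2 * k + 1)) = if k < m then (1 : ℝ) else 0 := by
        intro k _
        split_ifs with hk
        · have : (k : ℝ) + 1 ≤ m := by exact_mod_cast hk
          exact clamp01_of_ge (by linarith)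
        · have : (m : ℝ) ≤ k := by exact_mod_cast not_lt.mp hk
          exact clamp01_of_le (by linarith)
      rw [Finset.sum_congr rfl this, hsum m (by omega)]
      push_cast
      ring
    · have g1 : ((j : ℤ) / 2 : ℤ) = m := by omega
      have g2 : (((j : ℤ) + 1) / 2 : ℤ) = m + 1 := by omega
      rw [g1, g2]
      have hmA : m < A := by omega
      have hmr : (j : ℝ) = 2 * m + 1 := by rw [hm]; push_cast; ring
      have : ∀ k ∈ Finset.range A, RV.clamp01 (x - (2 * k + 1)) =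
          (if k < m then (1 : ℝ) else 0) + (if k = m then x - j else 0) := by
        intro k _
        rcases lt_trichotomy k m with hk | hk | hk
        · have h3 : (k : ℝ) + 1 ≤ m := by exact_mod_cast hk
          rw [if_pos hk, if_neg hk.ne, add_zero]
          exact clamp01_of_ge (by linarith)
        · rw [if_neg (by omega), if_pos hk, zero_add, hk, hmr]
          exact clamp01_of_mem' (by linarith) (by linarith)
        · have h3 : (m : ℝ) + 1 ≤ k := by exact_mod_cast hk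
          rw [if_neg (by omega), if_neg hk.ne', add_zero]
          exact clamp01_of_le (by linarith)
      rw [Finset.sum_congr rfl this, Finset.sum_add_distrib, hsum m hmA.le,
        Finset.sum_ite_eq' (Finset.range A) m, if_pos (Finset.mem_range.mpr hmA)]
      push_cast
      ring
  · have hx3 : x = j := by
      have : (j : ℝ) = 2 * A + 1 := by rw [heq]; push_cast; ring
      linarith
    have hx4 : x = ((j : ℤ) : ℝ) := by rw [hx3]; simp
    rw [hx4, interp_int, cP_of_lt (by omega) (by omega)]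
    have g1 : ((j : ℤ) / 2 : ℤ) = A := by omega
    rw [g1]
    have : ∀ k ∈ Finset.range A, RV.clamp01 (((j : ℤ) : ℝ) - (2 * k + 1)) = 1 := by
      intro k hk
      have h3 : (k : ℝ) + 1 ≤ A := by exact_mod_cast Finset.mem_range.mp hk
      have h4 : ((j : ℤ) : ℝ) = 2 * A + 1 := by rw [heq]; push_cast; ring
      exact clamp01_of_ge (by linarith)
    rw [Finset.sum_congr rfl this]
    simp

/-- **`P0` is the index function of the profile.** -/
theorem P0_prof {A : ℕ} {θ : ℝ} (h0 : -Real.pi ≤ θ) (h1 : θ ≤ Real.pi) :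
    2 * Real.pi * P0 A θ = RV.prof A θ - 2 * Real.pi := by
  have hp := Real.pi_pos
  have hx0 : 0 ≤ RV.xc A θ := by
    rw [RV.xc]
    have : 0 ≤ θ + Real.pi := by linarith
    positivity
  have hx1 : RV.xc A θ ≤ 2 * A + 1 := by
    rw [RV.xc, div_le_iff₀ (by positivity)]
    have h2 : (0 : ℝ) ≤ 2 * A + 1 := by positivity
    nlinarith
  rw [P0_eq, interp_cP_eq hx0 hx1, RV.prof]
  ring

theorem P0_arg (A : ℕ) (z : ℂ) :
    2 * Real.pi * P0 A (Complex.arg z) = RV.prof A (Complex.arg z) - 2 * Real.pi :=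
  P0_prof (Complex.neg_pi_lt_arg z).le (Complex.arg_le_pi z)

theorem eP_P0 (A : ℕ) (z : ℂ) :
    eP (P0 A (Complex.arg z)) = RV.eI (RV.prof A (Complex.arg z)) := by
  rw [eP_eq_eI, P0_arg, RV.eI, RV.eI]
  have : Complex.I * ((RV.prof A (Complex.arg z) - 2 * Real.pi : ℝ) : ℂ) =
      Complex.I * (RV.prof A (Complex.arg z) : ℝ) - 2 * Real.pi * Complex.I := by
    push_cast; ring
  rw [this, Complex.exp_periodic.sub_eq]

/-- On the open turns the index function has slope `(2A+1)/(2π)`. -/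
theorem P0_slope {A : ℕ} {θ₀ : ℝ} (h : dZ (P0 A θ₀) < 1 / 2) : ∃ δ > 0, ∀ x y : ℝ,
    |x - θ₀| < δ → |y - θ₀| < δ →
      P0 A y - P0 A x = (2 * A + 1) / (2 * Real.pi) * (y - x) := by
  have hp := Real.pi_pos
  set s₀ := RV.xc A θ₀ with hs₀
  have hhalf : ∀ j : ℤ, dZ (cP A j) = 1 / 2 := by
    intro j
    rw [cP]
    have e1 : (A : ℝ) * (j / (2 * A + 1) : ℤ) + (j % (2 * A + 1) / 2 : ℤ) - 1 / 2 =
        -(1 / 2) + ((A * (j / (2 * A + 1)) + (j % (2 * A + 1) / 2) : ℤ) : ℝ) := by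
      push_cast; ring
    rw [e1, dZ_add_int, dZ_neg, dZ]
    norm_num
  have hstep : cP A (⌊s₀⌋ + 1) = cP A ⌊s₀⌋ + 1 := by
    rcases cP_step A ⌊s₀⌋ with h1 | h1
    · exfalso
      rw [P0_eq, interp, h1, sub_self, mul_zero, add_zero, hhalf] at h
      exact lt_irrefl _ h
    · exact h1
  have hne : (⌊s₀⌋ : ℝ) ≠ s₀ := by
    intro h1
    rw [P0_eq, ← hs₀, ← h1, interp_int, hhalf] at h
    exact lt_irrefl _ h
  have hlt : (⌊s₀⌋ : ℝ) < s₀ := lt_of_le_of_ne (Int.floor_le _) hne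
  have hlt' : s₀ < ⌊s₀⌋ + 1 := Int.lt_floor_add_one _
  have hc : Continuous (RV.xc A) := by
    unfold RV.xc
    fun_prop
  have hev : ∀ᶠ θ in 𝓝 θ₀, (⌊s₀⌋ : ℝ) < RV.xc A θ ∧ RV.xc A θ < ⌊s₀⌋ + 1 :=
    (hc.continuousAt.eventually (lt_mem_nhds hlt)).and
      (hc.continuousAt.eventually (gt_mem_nhds hlt'))
  obtain ⟨δ, hδ, hb⟩ := Metric.eventually_nhds_iff.mp hev
  have hval : ∀ x, |x - θ₀| < δ → P0 A x = cP A ⌊s₀⌋ + (RV.xc A x - ⌊s₀⌋) := by
    intro x hx
    obtain ⟨h1, h2⟩ := hb (y := x) (by rwa [Real.dist_eq])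
    have h3 : ⌊RV.xc A x⌋ = ⌊s₀⌋ := Int.floor_eq_iff.mpr ⟨h1.le, h2⟩
    rw [P0_eq, interp, ← Int.self_sub_floor, h3, hstep]
    ring
  refine ⟨δ, hδ, fun x y hx hy => ?_⟩
  rw [hval x hx, hval y hy, RV.xc, RV.xc]
  ring

end Vale.Agent.P268.T
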