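import Vale.Agent.P268.T.H500.Zed
import Vale.Agent.P268.T.H830.Chain
import Vale.Agent.P268.T.H266.Lev

/-!
# P268, topological half, route V: planar families, the frozen definitions

Loops with `A` turns are given by an index function `P : ℝ → ℝ` with `P (θ + 2π) = P θ + A`: the
turn `k` is centred at `P = k`, and the real part of the loop is negative where the distance of `P`
from the integers is at least `3/10`.
-/

set_option linter.unusedSectionVars false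

namespace Vale.Agent.P268.T

open Set Filter Topology

/-- The distance from the integers. -/
noncomputable def dZ (x : ℝ) : ℝ := |x - round x|

/-- `0` near the turns `0, …, a` and `1` near the turns `a + 1, …, T - 1` (modulo `T`). -/
noncomputable def mark (a T : ℕ) (p : ℝ) : ℝ :=
  RV.clamp01 ((T * dZ ((p - a / 2) / T) - a / 2 - 3 / 10) * (5 / 2))

/-- `1` near the turn `A - 1` and `0` near the turns `0, …, A - 2` (modulo `A`). -/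
noncomputable def eta (A : ℕ) (p : ℝ) : ℝ :=
  1 - RV.clamp01 ((A * dZ ((p + 1) / A) - 3 / 10) * (5 / 2))

/-- The loop `e^{2πip}`. -/
noncomputable def eP (p : ℝ) : ℂ := ⟨Real.cos (2 * Real.pi * p), Real.sin (2 * Real.pi * p)⟩

/-- The index function of the profile `prof A`. -/
noncomputable def P0 (A : ℕ) (θ : ℝ) : ℝ :=
  interp (fun j : ℤ => A * (j / (2 * A + 1) : ℤ) + (j % (2 * A + 1) / 2 : ℤ) - 1 / 2) (RV.xc A θ)

/-- Families of loops with `A` turns, with index functions. -/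
structure TurnData (A : ℕ) (f : ℝ → ℝ → ℂ) (P : ℝ → ℝ → ℝ) : Prop where
  fam : TurnFam (Icc (0 : ℝ) 1) f
  re_le : ∀ t ∈ Icc (0 : ℝ) 1, ∀ θ, (f t θ).re ≤ 1
  Pcont : Continuous fun q : ℝ × ℝ => P q.1 q.2
  Pper : ∀ t θ, P t (θ + 2 * Real.pi) = P t θ + A
  neg : ∀ t ∈ Icc (0 : ℝ) 1, ∀ θ, 3 / 10 ≤ dZ (P t θ) → (f t θ).re < 0

/-- The real gate form: `q ≥ 0` closes the last turn. -/
noncomputable def realG (A : ℕ) (f : ℝ → ℝ → ℂ) (P : ℝ → ℝ → ℝ) (t q : ℝ) (z : ℂ) : ℂ :=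
  pol (f t) z - ((2 * (eta A (P t (Complex.arg z)) * min q ‖z‖) : ℝ) : ℂ)

/-- The closed cone over the rests. -/
def restSet (P : ℝ → ℝ → ℝ) : Set (ℝ × ℂ) :=
  {p | 3 / 10 * ‖p.2‖ ≤ ‖p.2‖ * dZ (P p.1 (Complex.arg p.2))}

/-- Gate multipliers for `T` turns of `y`. -/
structure MarkData (T : ℕ) (P : ℝ → ℝ → ℝ) (X : ℝ → ℝ → ℝ) : Prop where
  cont : Continuous fun q : ℝ × ℝ => X q.1 q.2
  per : ∀ t, Function.Periodic (X t) (2 * Real.pi)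
  nonneg : ∀ t θ, 0 ≤ X t θ
  cases : ∀ t ∈ Icc (0 : ℝ) 1, ∀ θ, (∀ᶠ q : ℝ × ℝ in 𝓝 (t, θ), X q.1 q.2 = 0) ∨
    3 / 10 ≤ dZ (P t θ) ∨ 1 ≤ X t θ

/-- A stage: index functions `P A`, gate multipliers `X a T`, first loops `G₁ a` (`a` turns) and
planar families `G a` (`a + 1` turns), for all levels with `a < N`. -/
structure Stage (N : ℕ) (P : ℕ → ℝ → ℝ → ℝ) (X : ℕ → ℕ → ℝ → ℝ → ℝ)
    (G₁ : ℕ → ℝ → ℂ → ℂ) (G : ℕ → ℝ → ℝ → ℂ → ℂ) : Prop where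
  Pcont : ∀ A, 2 ≤ A → A ≤ N → Continuous fun q : ℝ × ℝ => P A q.1 q.2
  Pper : ∀ A, 2 ≤ A → A ≤ N → ∀ t θ, P A t (θ + 2 * Real.pi) = P A t θ + A
  mark : ∀ a T, 2 ≤ a → a < T → T ≤ N → MarkData T (P T) (X a T)
  first : ∀ a, 2 ≤ a → a < N → HFam (Icc (0 : ℝ) 1) (G₁ a)
  first_neg : ∀ a, 2 ≤ a → a < N → ∀ t ∈ Icc (0 : ℝ) 1, ∀ z : ℂ, z ≠ 0 →
    3 / 10 ≤ dZ (P a t (Complex.arg z)) → (G₁ a t z).re < 0
  planar : ∀ a, 2 ≤ a → a < N → ∃ C, XPlanar (Icc (0 : ℝ) 1) C (G a)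
  neg : ∀ a, 2 ≤ a → a < N → ∀ t ∈ Icc (0 : ℝ) 1, ∀ z : ℂ, z ≠ 0 →
    3 / 10 ≤ dZ (P (a + 1) t (Complex.arg z)) → ∀ q : ℝ, 0 ≤ q → (G a t q z).re < 0

end Vale.Agent.P268.T
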