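import Vale.Agent.P268.T.H69.Stage
import Vale.Agent.P268.T.SkelChain

/-!
# P268, topological half, route V: planar families, the gate functions at the end
-/

set_option linter.unusedSectionVars false

namespace Vale.Agent.P268.T

open Set Filter Topology

/-- The properties of the index functions at the end. -/
structure IsP1 (P1 : ℕ → ℝ → ℝ) : Prop where
  inc : ∀ T : ℕ, 2 ≤ T → ∃ m L : ℝ, IncBi m L (P1 T)
  add : ∀ T : ℕ, 2 ≤ T → ∀ θ, P1 T (θ + 2 * Real.pi) = P1 T θ + T
  val : ∀ T : ℕ, 2 ≤ T → ∀ j : ℤ, P1 T (cen T j) = j + 1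

theorem arctan_lip (x y : ℝ) : |Real.arctan x - Real.arctan y| ≤ |x - y| := by
  have key : ∀ x y : ℝ, x ≤ y → Real.arctan y - Real.arctan x ≤ y - x := by
    intro x y hxy
    have h1 : Monotone fun t : ℝ => t - Real.arctan t := by
      refine monotone_of_deriv_nonneg (differentiable_id.sub Real.differentiable_arctan) fun t => ?_
      have h2 : HasDerivAt (fun t : ℝ => t - Real.arctan t) (1 - 1 / (1 + t ^ 2)) t :=
        (hasDerivAt_id t).sub (Real.hasDerivAt_arctan t)
      rw [h2.deriv]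
      have : 1 / (1 + t ^ 2) ≤ 1 := by
        rw [div_le_one (by positivity)]
        nlinarith [sq_nonneg t]
      linarith
    have := h1 hxy
    simp only at this
    linarith
  rcases le_total x y with h | h
  · have h1 := Real.arctan_mono h
    rw [abs_sub_comm, abs_of_nonneg (by linarith), abs_sub_comm, abs_of_nonneg (by linarith)]
    exact key x y h
  · have h1 := Real.arctan_mono h
    rw [abs_of_nonneg (by linarith), abs_of_nonneg (by linarith)]
    exact key y x h

theorem arg_eq_arctan {z : ℂ} (hz : 0 < z.re) : Complex.arg z = Real.arctan (z.im / z.re) := by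
  have h1 : |Complex.arg z| < Real.pi / 2 := Complex.abs_arg_lt_pi_div_two_iff.mpr (Or.inl hz)
  rw [← Complex.tan_arg, Real.arctan_tan (abs_lt.mp h1).1 (abs_lt.mp h1).2]

/-- The index function near the rays. -/
structure NearP (T : ℕ) (P : ℝ → ℝ) (d : ℝ) : Prop where
  neg : ∀ z : ℂ, z.re < 0 → |z.im| ≤ d * |z.re| → ∃ n : ℤ, |P (Complex.arg z) - n * T| ≤ 3 / 10
  pos : ∀ z : ℂ, ∀ k : ℕ, k + 1 < T → 0 < z.re → |z.im - k * z.re| ≤ d * z.re →
    |P (Complex.arg z) - (k + 1)| ≤ 3 / 10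

theorem NearP.mono {T : ℕ} {P : ℝ → ℝ} {d d' : ℝ} (h : NearP T P d) (hd : d' ≤ d) :
    NearP T P d' :=
  ⟨fun z hz h1 => h.neg z hz (h1.trans (mul_le_mul_of_nonneg_right hd (abs_nonneg _))),
    fun z k hk hz h1 => h.pos z k hk hz (h1.trans (mul_le_mul_of_nonneg_right hd hz.le))⟩

theorem IsP1.near {P1 : ℕ → ℝ → ℝ} (h : IsP1 P1) {T : ℕ} (hT : 2 ≤ T) :
    ∃ d > 0, NearP T (P1 T) d := by
  obtain ⟨m, L, hi⟩ := h.inc T hT
  have hL := hi.L_nonneg
  have hT' : (2 : ℤ) ≤ (T : ℤ) := by exact_mod_cast hT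
  have hkey : ∀ x y s : ℝ, |x - y| ≤ 3 / (10 * L) → |P1 T x - P1 T y| ≤ 3 / 10 := by
    intro x y _ hxy
    refine (hi.abs_le x y).2.trans ?_
    have h1 := mul_le_mul_of_nonneg_left hxy hL.le
    have h2 : L * (3 / (10 * L)) = 3 / 10 := by field_simp
    linarith
  refine ⟨3 / (10 * L), by positivity, fun z hz h1 => ?_, fun z k hk hz h1 => ?_⟩
  · have hz0 : z ≠ 0 := by
      rintro rfl
      simp at hz
    have hnr : 0 < (-z).re := by rw [Complex.neg_re]; linarith
    have e1 : ((Complex.arg (-z) : ℝ) : Real.Angle) = Complex.arg z + Real.pi :=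
      Complex.arg_neg_coe_angle hz0
    have e2 : ((Complex.arg z : ℝ) : Real.Angle) = ((Complex.arg (-z) + Real.pi : ℝ) : Real.Angle) := by
      rw [Real.Angle.coe_add, e1, add_assoc, Real.Angle.coe_pi_add_coe_pi, add_zero]
    obtain ⟨k, hk⟩ := Real.Angle.angle_eq_iff_two_pi_dvd_sub.mp e2
    have e3 : Complex.arg z = (Complex.arg (-z) + Real.pi) + k * (2 * Real.pi) := by linarith
    -- the quasi-period
    have hper : ∀ (n : ℤ) (θ : ℝ), P1 T (θ + n * (2 * Real.pi)) = P1 T θ + n * T := by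
      intro n θ
      have hg : Function.Periodic (fun θ => P1 T θ - T * (θ / (2 * Real.pi))) (2 * Real.pi) := by
        intro θ
        have hp := Real.pi_pos
        show P1 T (θ + 2 * Real.pi) - T * ((θ + 2 * Real.pi) / (2 * Real.pi)) =
          P1 T θ - T * (θ / (2 * Real.pi))
        rw [h.add T hT]
        have : (θ + 2 * Real.pi) / (2 * Real.pi) = θ / (2 * Real.pi) + 1 := by field_simp
        rw [this]
        ring
      have h2 : P1 T (θ + n * (2 * Real.pi)) - T * ((θ + n * (2 * Real.pi)) / (2 * Real.pi)) =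
          P1 T θ - T * (θ / (2 * Real.pi)) := hg.int_mul n θ
      have hp := Real.pi_pos
      have : (θ + n * (2 * Real.pi)) / (2 * Real.pi) = θ / (2 * Real.pi) + n := by field_simp
      rw [this] at h2
      linarith
    refine ⟨1 + k, ?_⟩
    rw [e3, hper]
    have e4 : P1 T Real.pi = T := by
      have := h.val T hT ((T : ℤ) - 1)
      rw [cen_last hT'] at this
      rw [this]; push_cast; ring
    have e5 : P1 T (Complex.arg (-z) + Real.pi) + k * T - ((1 + k : ℤ) : ℝ) * T =
        P1 T (Complex.arg (-z) + Real.pi) - P1 T Real.pi := by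
      rw [e4]; push_cast; ring
    rw [e5]
    refine hkey _ _ 0 ?_
    rw [add_sub_cancel_right, arg_eq_arctan hnr]
    have h3 := arctan_lip ((-z).im / (-z).re) 0
    rw [Real.arctan_zero, sub_zero, sub_zero] at h3
    refine h3.trans ?_
    rw [abs_div, div_le_iff₀ (abs_pos.mpr hnr.ne'), Complex.neg_im, Complex.neg_re, abs_neg, abs_neg]
    exact h1
  · have hcen : cen T (k : ℤ) = Real.arctan k := by
      rw [cen_of_lt (by omega) (by exact_mod_cast hk)]
      simp
    have e1 : P1 T (Real.arctan k) = k + 1 := by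
      rw [← hcen, h.val T hT]
      simp
    rw [← e1]
    refine hkey _ _ 0 ?_
    rw [arg_eq_arctan hz]
    refine (arctan_lip _ _).trans ?_
    have e2 : z.im / z.re - k = (z.im - k * z.re) / z.re := by field_simp
    rw [e2, abs_div, abs_of_pos hz, div_le_iff₀ hz]
    exact h1

theorem IsP1.near_le {P1 : ℕ → ℝ → ℝ} (h : IsP1 P1) (N : ℕ) :
    ∃ d > 0, d ≤ 1 / 4 ∧ ∀ T, 2 ≤ T → T ≤ N → NearP T (P1 T) d := by
  induction N with
  | zero => exact ⟨1 / 4, by norm_num, le_rfl, fun T h2 h3 => absurd h3 (by omega)⟩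
  | succ N ih =>
    obtain ⟨d, hd, hd4, hN⟩ := ih
    by_cases hN2 : 2 ≤ N + 1
    · obtain ⟨d', hd', hN'⟩ := h.near hN2
      refine ⟨min d d', lt_min hd hd', (min_le_left _ _).trans hd4, fun T h2 h3 => ?_⟩
      rcases h3.lt_or_eq with h4 | h4
      · exact (hN T h2 (by omega)).mono (min_le_left _ _)
      · rw [h4]
        exact hN'.mono (min_le_right _ _)
    · exact ⟨d, hd, hd4, fun T h2 h3 => absurd (h2.trans h3) hN2⟩

/-- The explicit gate function. -/
noncomputable def chiPL (a b : ℕ) (y : ℂ) : ℝ :=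
  (b + 2) * max 0 (min (max y.re 0) (4 * (y.im - (a - 3 / 4) * max y.re 0)))

/-- The gate functions at the end. -/
noncomputable def chiEnd (P1 : ℕ → ℝ → ℝ) (N a : ℕ) (c : List ℕ) (y : ℂ) : ℝ :=
  if 2 ≤ RV.trn (c.headD 0) c.tail ∧ RV.trn (c.headD 0) c.tail ≤ N then
    chiX (fun a T _ θ => mark a T (P1 T θ)) a c 0 y
  else chiPL a (c.headD 0) y

theorem mark_of_mul {a T : ℕ} (hT : 0 < T) {p : ℝ} {n : ℤ} (h : |p - n * T| ≤ 3 / 10) :
    mark a T p = 0 := by
  have h1 : p = (p - n * T) + n * T := by ring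
  rw [h1, mark_add hT]
  exact mark_zero hT (Nat.zero_le a) (by simpa using h)

/-- **The gate functions at the end of the planar deformations.** -/
theorem IsP1.rayGateFun {P1 : ℕ → ℝ → ℝ} (h : IsP1 P1) (N : ℕ) :
    ∃ d > 0, d ≤ 1 / 4 ∧ (∀ T, 2 ≤ T → T ≤ N → NearP T (P1 T) d) ∧
      RV.RayGateFun d (chiEnd P1 N) := by
  obtain ⟨d, hd, hd4, hN⟩ := h.near_le N
  refine ⟨d, hd, hd4, hN, ?_⟩
  -- the number of turns
  have htrn : ∀ (b : ℕ) (c : List ℕ), b ≤ RV.trn b c := by
    intro b c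
    cases c with
    | nil => exact le_rfl
    | cons x c => exact Nat.le_succ b
  have htrn' : ∀ (b : ℕ) (c : List ℕ), c ≠ [] → b < RV.trn b c := by
    intro b c hc
    cases c with
    | nil => exact absurd rfl hc
    | cons x c => exact Nat.lt_succ_self b
  -- the two branches
  have e1 : ∀ a b c, 2 ≤ RV.trn b c → RV.trn b c ≤ N → ∀ y : ℂ, chiEnd P1 N a (b :: c) y =
      ‖y‖ * mark a (RV.trn b c) (P1 (RV.trn b c) (Complex.arg y)) := by
    intro a b c h1 h2 y
    exact if_pos ⟨h1, h2⟩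
  have e2 : ∀ a b c, ¬ (2 ≤ RV.trn b c ∧ RV.trn b c ≤ N) → ∀ y : ℂ,
      chiEnd P1 N a (b :: c) y = chiPL a b y := by
    intro a b c h1 y
    exact if_neg h1
  have hper : ∀ (a T : ℕ), 2 ≤ T → Function.Periodic (fun θ => mark a T (P1 T θ))
      (2 * Real.pi) := by
    intro a T hT θ
    show mark a T (P1 T (θ + 2 * Real.pi)) = mark a T (P1 T θ)
    rw [h.add T hT]
    have := mark_add (a := a) (by omega : 0 < T) (P1 T θ) 1
    simpa using this
  constructor
  · intro a b c _
    by_cases hT : 2 ≤ RV.trn b c ∧ RV.trn b c ≤ N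
    · rw [funext (e1 a b c hT.1 hT.2)]
      obtain ⟨m, L, hi⟩ := h.inc _ hT.1
      have h1 := continuous_polR (X := fun _ θ => mark a (RV.trn b c) (P1 (RV.trn b c) θ))
        ((continuous_mark _ _).comp (hi.continuous.comp continuous_snd))
        (fun _ => hper a _ hT.1)
      exact h1.comp (g := fun p : ℝ × ℂ => ‖p.2‖ *
        mark a (RV.trn b c) (P1 (RV.trn b c) (Complex.arg p.2)))
        (f := fun y : ℂ => ((0 : ℝ), y)) (by fun_prop)
    · rw [funext (e2 a b c hT)]
      unfold chiPL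
      fun_prop
  · intro a b c _ r hr y
    by_cases hT : 2 ≤ RV.trn b c ∧ RV.trn b c ≤ N
    · rw [e1 a b c hT.1 hT.2, e1 a b c hT.1 hT.2]
      exact polR_smul (fun θ => mark a (RV.trn b c) (P1 (RV.trn b c) θ)) hr y
    · rw [e2 a b c hT, e2 a b c hT, chiPL, chiPL, Complex.smul_re, Complex.smul_im, smul_eq_mul,
        smul_eq_mul]
      have h1 : max (r * y.re) 0 = r * max y.re 0 := by
        rw [mul_max_of_nonneg _ _ hr, mul_zero]
      have h2 : 4 * (r * y.im - (a - 3 / 4) * (r * max y.re 0)) =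
          r * (4 * (y.im - (a - 3 / 4) * max y.re 0)) := by ring
      rw [h1, h2, ← mul_min_of_nonneg _ _ hr]
      have h3 : max 0 (r * min (max y.re 0) (4 * (y.im - (a - 3 / 4) * max y.re 0))) =
          r * max 0 (min (max y.re 0) (4 * (y.im - (a - 3 / 4) * max y.re 0))) := by
        rw [mul_max_of_nonneg _ _ hr, mul_zero]
      rw [h3]
      ring
  · intro a b c _ y
    by_cases hT : 2 ≤ RV.trn b c ∧ RV.trn b c ≤ N
    · rw [e1 a b c hT.1 hT.2]
      exact mul_nonneg (norm_nonneg _) (mark_nonneg _ _ _)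
    · rw [e2 a b c hT, chiPL]
      exact mul_nonneg (by positivity) (le_max_left _ _)
  · intro a b c _ y hy h1
    by_cases hT : 2 ≤ RV.trn b c ∧ RV.trn b c ≤ N
    · rw [e1 a b c hT.1 hT.2]
      obtain ⟨n, hn⟩ := (hN _ hT.1 hT.2).neg y hy h1
      rw [mark_of_mul (by omega) hn, mul_zero]
    · rw [e2 a b c hT, chiPL, max_eq_right hy.le]
      have h2 : min (0 : ℝ) (4 * (y.im - (a - 3 / 4) * 0)) ≤ 0 := min_le_left _ _
      rw [max_eq_left h2, mul_zero]
  · intro a b c hab k y hk hy h1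
    by_cases hT : 2 ≤ RV.trn b c ∧ RV.trn b c ≤ N
    · rw [e1 a b c hT.1 hT.2]
      have hkT : k + 1 < RV.trn b c := by have := htrn b c; omega
      have h2 := (hN _ hT.1 hT.2).pos y k hkT hy h1
      rw [mark_zero (k := k + 1) (by omega) (by omega) (by exact_mod_cast h2), mul_zero]
    · rw [e2 a b c hT, chiPL, max_eq_left hy.le]
      have hka : (k : ℝ) + 1 ≤ a := by exact_mod_cast hk
      have h2 := (abs_le.mp h1).2
      have h3 : d * y.re ≤ 1 / 4 * y.re := mul_le_mul_of_nonneg_right hd4 hy.le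
      have h4 : ((k : ℝ) + 1) * y.re ≤ a * y.re := mul_le_mul_of_nonneg_right hka hy.le
      have h5 : min y.re (4 * (y.im - (a - 3 / 4) * y.re)) ≤ 0 :=
        (min_le_right _ _).trans (by linarith)
      rw [max_eq_left h5, mul_zero]
  · intro a b c hab k y hk hkb hy h1
    have hn : y.re ≤ ‖y‖ := Complex.re_le_norm y
    by_cases hT : 2 ≤ RV.trn b c ∧ RV.trn b c ≤ N
    · rw [e1 a b c hT.1 hT.2]
      have hkT : k + 1 < RV.trn b c := by
        rcases hkb with h2 | ⟨h2, h3⟩
        · have := htrn b c; omega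
        · have := htrn' b c h3; omega
      have h2 := (hN _ hT.1 hT.2).pos y k hkT hy h1
      rw [mark_one (k := k + 1) (by omega) (by omega) hkT (by exact_mod_cast h2), mul_one]
      exact hn
    · rw [e2 a b c hT, chiPL, max_eq_left hy.le]
      have hka : (a : ℝ) ≤ k := by exact_mod_cast hk
      have h2 := (abs_le.mp h1).1
      have h3 : d * y.re ≤ 1 / 4 * y.re := mul_le_mul_of_nonneg_right hd4 hy.le
      have h4 : (a : ℝ) * y.re ≤ k * y.re := mul_le_mul_of_nonneg_right hka hy.le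
      have h5 : min y.re (4 * (y.im - (a - 3 / 4) * y.re)) = y.re :=
        min_eq_left (by linarith)
      rw [h5, max_eq_right hy.le]
      have hb : (0 : ℝ) ≤ b := by positivity
      nlinarith

end Vale.Agent.P268.T
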