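import Vale.Agent.P268.T.H69.Idx
import Vale.Agent.P268.T.H830.NestF

/-!
# P268, topological half, route V: planar families, stages are gate data
-/

set_option linter.unusedSectionVars false

namespace Vale.Agent.P268.T

open Set Filter Topology

/-! ### Real functions given on the circle -/

/-- Continuity of `‖z‖ X (arg z)`. -/
theorem continuous_polR {X : ℝ → ℝ → ℝ} (hX : Continuous fun q : ℝ × ℝ => X q.1 q.2)
    (per : ∀ t, Function.Periodic (X t) (2 * Real.pi)) :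
    Continuous fun p : ℝ × ℂ => ‖p.2‖ * X p.1 (Complex.arg p.2) := by
  have hp := Real.pi_pos
  rw [continuous_iff_continuousAt]
  rintro ⟨t₀, z₀⟩
  let s : Set ℝ := Icc (t₀ - 1) (t₀ + 1)
  obtain ⟨M, hM⟩ := (isCompact_Icc (a := t₀ - 1) (b := t₀ + 1)).prod
    (isCompact_Icc (a := (0 : ℝ)) (b := 2 * Real.pi)) |>.exists_bound_of_continuousOn
      (f := fun q : ℝ × ℝ => X q.1 q.2) hX.continuousOn
  have hbd : ∀ t ∈ s, ∀ θ, ‖((X t θ : ℝ) : ℂ)‖ ≤ M := by
    intro t ht θ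
    obtain ⟨y, hy, hy'⟩ := (per t).exists_mem_Ico₀ (by positivity) θ
    rw [hy', Complex.norm_real]
    exact hM (t, y) ⟨ht, hy.1, hy.2.le⟩
  have h1 : ContinuousOn (fun p : ℝ × ℂ => pol (fun θ => ((X p.1 θ : ℝ) : ℂ)) p.2) (s ×ˢ univ) :=
    continuousOn_pol (f := fun t θ => ((X t θ : ℝ) : ℂ))
      (Complex.continuous_ofReal.comp hX).continuousOn hbd (fun t _ θ => by
        show ((X t (θ + 2 * Real.pi) : ℝ) : ℂ) = _
        rw [per])
  have h2 : ContinuousAt (fun p : ℝ × ℂ => pol (fun θ => ((X p.1 θ : ℝ) : ℂ)) p.2) (t₀, z₀) :=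
    h1.continuousAt (prod_mem_nhds (Icc_mem_nhds (by linarith) (by linarith)) univ_mem)
  have h3 := Complex.continuous_re.continuousAt.comp h2
  refine h3.congr (Eventually.of_forall fun p => ?_)
  show (pol (fun θ => ((X p.1 θ : ℝ) : ℂ)) p.2).re = _
  rw [pol, Complex.smul_re, Complex.ofReal_re, smul_eq_mul]

theorem arg_smul_pos {r : ℝ} (hr : 0 < r) (z : ℂ) : Complex.arg (r • z) = Complex.arg z := by
  rw [Complex.real_smul, Complex.arg_real_mul z hr]

theorem polR_smul (X : ℝ → ℝ) {r : ℝ} (hr : 0 ≤ r) (z : ℂ) :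
    ‖r • z‖ * X (Complex.arg (r • z)) = r * (‖z‖ * X (Complex.arg z)) := by
  rcases hr.eq_or_lt with rfl | hr'
  · simp
  · rw [arg_smul_pos hr', norm_smul, Real.norm_of_nonneg hr, mul_assoc]

/-- Change of the base point. -/
theorem periodic_arg {Y : Type*} {g : ℝ → Y} (hg : Function.Periodic g (2 * Real.pi)) {x₀ : ℂ}
    (hx₀ : x₀ ≠ 0) {x : ℂ} (hx : x ≠ 0) :
    g (Complex.arg x) = g (Complex.arg x₀ + Complex.arg (x / x₀)) := by
  have h1 : ((Complex.arg x : ℝ) : Real.Angle) =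
      ((Complex.arg x₀ + Complex.arg (x / x₀) : ℝ) : Real.Angle) := by
    rw [Real.Angle.coe_add, ← Complex.arg_mul_coe_angle hx₀ (div_ne_zero hx hx₀),
      mul_div_cancel₀ _ hx₀]
  obtain ⟨k, hk⟩ := Real.Angle.angle_eq_iff_two_pi_dvd_sub.mp h1
  have h2 : Complex.arg x = Complex.arg x₀ + Complex.arg (x / x₀) + k * (2 * Real.pi) := by
    linarith
  rw [h2]
  exact hg.int_mul k _

theorem continuousAt_argdiv {x₀ : ℂ} (hx₀ : x₀ ≠ 0) :
    ContinuousAt (fun x : ℂ => Complex.arg x₀ + Complex.arg (x / x₀)) x₀ := by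
  have h3 : ContinuousAt Complex.arg (x₀ / x₀) := by
    rw [div_self hx₀]
    exact Complex.continuousAt_arg (by simp [Complex.slitPlane])
  exact continuousAt_const.add (ContinuousAt.comp (f := fun x : ℂ => x / x₀) h3
    (continuousAt_id.div_const x₀))

/-- Periodic properties which hold near `(t₀, arg z₀)` hold near `(t₀, z₀)`. -/
theorem eventually_arg {T : Type*} [TopologicalSpace T] {Q : T → ℝ → Prop} {t₀ : T} {z₀ : ℂ}
    (hz₀ : z₀ ≠ 0) (per : ∀ t θ, Q t (θ + 2 * Real.pi) = Q t θ)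
    (h : ∀ᶠ q : T × ℝ in 𝓝 (t₀, Complex.arg z₀), Q q.1 q.2) :
    ∀ᶠ q : T × ℂ in 𝓝 (t₀, z₀), Q q.1 (Complex.arg q.2) := by
  have h1 : ContinuousAt (fun q : T × ℂ =>
      (q.1, Complex.arg z₀ + Complex.arg (q.2 / z₀))) (t₀, z₀) := by
    refine continuousAt_fst.prodMk ?_
    exact ContinuousAt.comp (f := fun q : T × ℂ => q.2) (x := (t₀, z₀))
      (g := fun x : ℂ => Complex.arg z₀ + Complex.arg (x / z₀)) (continuousAt_argdiv hz₀)
      continuousAt_snd
  have h2 : Tendsto (fun q : T × ℂ => (q.1, Complex.arg z₀ + Complex.arg (q.2 / z₀)))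
      (𝓝 (t₀, z₀)) (𝓝 (t₀, Complex.arg z₀)) := by
    have h3 := h1.tendsto
    simp only [div_self hz₀, Complex.arg_one, add_zero] at h3
    exact h3
  have h4 : ∀ᶠ q : T × ℂ in 𝓝 (t₀, z₀), q.2 ≠ 0 := continuousAt_snd.eventually_ne hz₀
  filter_upwards [h2.eventually h, h4] with q hq hq0
  have h5 : Q q.1 (Complex.arg q.2) = Q q.1 (Complex.arg z₀ + Complex.arg (q.2 / z₀)) :=
    periodic_arg (g := Q q.1) (per q.1) hz₀ hq0
  rw [h5]
  exact hq

/-! ### The cones over the rests -/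

theorem dZ_per {A : ℕ} {P : ℝ → ℝ} (hP : ∀ θ, P (θ + 2 * Real.pi) = P θ + A) :
    Function.Periodic (fun θ => dZ (P θ)) (2 * Real.pi) := by
  intro θ
  show dZ (P (θ + 2 * Real.pi)) = dZ (P θ)
  rw [hP]
  exact_mod_cast dZ_add_int (P θ) (A : ℤ)

theorem isClosed_restSet {A : ℕ} {P : ℝ → ℝ → ℝ} (hc : Continuous fun q : ℝ × ℝ => P q.1 q.2)
    (hP : ∀ t θ, P t (θ + 2 * Real.pi) = P t θ + A) : IsClosed (restSet P) := by
  have h1 : Continuous fun p : ℝ × ℂ => ‖p.2‖ * dZ (P p.1 (Complex.arg p.2)) :=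
    continuous_polR (X := fun t θ => dZ (P t θ)) (continuous_dZ.comp hc) fun t => dZ_per (hP t)
  exact isClosed_le (by fun_prop) h1

theorem restSet_cone {P : ℝ → ℝ → ℝ} {p : ℝ × ℂ} (hp : p ∈ restSet P) {r : ℝ} (hr : 0 < r) :
    (p.1, r • p.2) ∈ restSet P := by
  show 3 / 10 * ‖r • p.2‖ ≤ ‖r • p.2‖ * dZ (P p.1 (Complex.arg (r • p.2)))
  rw [polR_smul (fun θ => dZ (P p.1 θ)) hr.le, norm_smul, Real.norm_of_nonneg hr.le]
  have h1 : 3 / 10 * ‖p.2‖ ≤ ‖p.2‖ * dZ (P p.1 (Complex.arg p.2)) := hp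
  have h2 := mul_le_mul_of_nonneg_left h1 hr.le
  linarith

theorem mem_restSet {P : ℝ → ℝ → ℝ} {t : ℝ} {z : ℂ} (hz : z ≠ 0) :
    (t, z) ∈ restSet P ↔ 3 / 10 ≤ dZ (P t (Complex.arg z)) := by
  have hn : 0 < ‖z‖ := norm_pos_iff.mpr hz
  show 3 / 10 * ‖z‖ ≤ ‖z‖ * dZ (P t (Complex.arg z)) ↔ _
  rw [mul_comm (3 / 10 : ℝ), mul_le_mul_iff_right₀ hn]

/-! ### Marks -/

theorem MarkData.of_mark {a T : ℕ} (hT : 0 < T) {P : ℝ → ℝ → ℝ}
    (hc : Continuous fun q : ℝ × ℝ => P q.1 q.2)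
    (hP : ∀ t θ, P t (θ + 2 * Real.pi) = P t θ + T) :
    MarkData T P (fun t θ => mark a T (P t θ)) where
  cont := (continuous_mark a T).comp hc
  per t θ := by
    show mark a T (P t (θ + 2 * Real.pi)) = mark a T (P t θ)
    rw [hP]
    have := mark_add (a := a) hT (P t θ) 1
    simpa using this
  nonneg t θ := mark_nonneg _ _ _
  cases t _ θ := by
    rcases mark_cases (a := a) hT (P t θ) with h | h | h
    · left
      exact (hc.continuousAt (x := (t, θ))).eventually h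
    · exact Or.inr (Or.inl h)
    · exact Or.inr (Or.inr h.self_of_nhds.ge)

/-! ### Stages are gate data -/

/-- The admissible levels. -/
def okN (N a : ℕ) (c : List ℕ) : Prop :=
  2 ≤ a ∧ a < N ∧ ∀ b ∈ c.head?, a < b ∧ b < N

theorem okAll_okN {N : ℕ} : ∀ {c : List ℕ}, (∀ a ∈ c, 2 ≤ a) → c.IsChain (· < ·) →
    (∀ a ∈ c, a < N) → OkAll (okN N) c
  | [], _, _, _ => trivial
  | [a], h2, _, hN => ⟨⟨h2 a (by simp), hN a (by simp), fun b hb => by simp at hb⟩, trivial⟩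
  | a :: b :: c, h2, hc, hN => by
    have hab : a < b := by
      cases hc with
      | cons_cons h _ => exact h
    have hbc : (b :: c).IsChain (· < ·) := by
      cases hc with
      | cons_cons _ h => exact h
    refine ⟨⟨h2 a (by simp), hN a (by simp), fun x hx => ?_⟩,
      okAll_okN (fun x hx => h2 x (List.mem_cons_of_mem _ hx)) hbc
        (fun x hx => hN x (List.mem_cons_of_mem _ hx))⟩
    have : x = b := by simpa using hx.symm
    subst this
    exact ⟨hab, hN x (by simp)⟩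

/-- The gate functions of a stage. -/
noncomputable def chiX (X : ℕ → ℕ → ℝ → ℝ → ℝ) (a : ℕ) (c : List ℕ) (t : ℝ) (y : ℂ) : ℝ :=
  ‖y‖ * X a (RV.trn (c.headD 0) c.tail) t (Complex.arg y)

theorem Stage.gateData {N : ℕ} {P : ℕ → ℝ → ℝ → ℝ} {X : ℕ → ℕ → ℝ → ℝ → ℝ}
    {G₁ : ℕ → ℝ → ℂ → ℂ} {G : ℕ → ℝ → ℝ → ℂ → ℂ} (h : Stage N P X G₁ G) :
    GateData (Icc (0 : ℝ) 1) G₁ G (chiX X) (fun a c => restSet (P (RV.trn a c))) (okN N) := by
  -- the number of turns of `y`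
  have htrn : ∀ a b c, okN N a (b :: c) → a < RV.trn b c ∧ RV.trn b c ≤ N := by
    intro a b c hok
    obtain ⟨-, -, h3⟩ := hok
    obtain ⟨h4, h5⟩ := h3 b (by simp)
    cases c with
    | nil => exact ⟨h4, h5.le⟩
    | cons x c => exact ⟨h4.trans (Nat.lt_succ_self b), h5⟩
  have hmk : ∀ a b c, okN N a (b :: c) → MarkData (RV.trn b c) (P (RV.trn b c))
      (X a (RV.trn b c)) := fun a b c hok =>
    h.mark a _ hok.1 (htrn a b c hok).1 (htrn a b c hok).2
  refine ⟨fun a hok => h.first a hok.1 hok.2.1, ?_, fun a b c hok => h.planar a hok.1 hok.2.1,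
    ?_, fun a b c _ p hp r hr => restSet_cone hp hr, ?_, ?_, ?_, ?_, ?_⟩
  · rintro a hok ⟨t, z⟩ hp ht hz
    exact h.first_neg a hok.1 hok.2.1 t ht z hz ((mem_restSet hz).mp hp)
  · intro a b c hok
    exact isClosed_restSet (h.Pcont (a + 1) (by have := hok.1; omega) (by have := hok.2.1; omega))
      (h.Pper (a + 1) (by have := hok.1; omega) (by have := hok.2.1; omega))
  · rintro a b c hok ⟨t, z⟩ hp ht hz d hd
    exact h.neg a hok.1 hok.2.1 t ht z hz ((mem_restSet hz).mp hp) d hd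
  · intro a b c hok
    exact (continuous_polR (hmk a b c hok).cont (hmk a b c hok).per).continuousOn
  · intro a b c hok t _ r hr y
    exact polR_smul (X a (RV.trn b c) t) hr y
  · intro a b c hok t _ y
    exact mul_nonneg (norm_nonneg _) ((hmk a b c hok).nonneg _ _)
  · intro a b c hok t ht y hy
    have hn : 0 < ‖y‖ := norm_pos_iff.mpr hy
    rcases (hmk a b c hok).cases t ht (Complex.arg y) with h1 | h1 | h1
    · left
      have h2 := eventually_arg (Q := fun t θ => X a (RV.trn b c) t θ = 0) hy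
        (fun t θ => by rw [(hmk a b c hok).per t]) h1
      rw [nhds_prod_eq, eventually_prod_iff] at h2
      obtain ⟨pa, ha, pb, hb, hab⟩ := h2
      refine ⟨{y | pb y}, hb, ?_⟩
      filter_upwards [nhdsWithin_le_nhds ha] with t' ht' y' hy'
      show ‖y'‖ * X a (RV.trn b c) t' (Complex.arg y') = 0
      rw [hab ht' hy', mul_zero]
    · exact Or.inr (Or.inl ((mem_restSet hy).mpr h1))
    · refine Or.inr (Or.inr ?_)
      show ‖y‖ ≤ ‖y‖ * X a (RV.trn b c) t (Complex.arg y)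
      nlinarith

/-- **A stage gives an equivalence of chains of gates.** -/
theorem Stage.eventually_hEqv {N : ℕ} {P : ℕ → ℝ → ℝ → ℝ} {X : ℕ → ℕ → ℝ → ℝ → ℝ}
    {G₁ : ℕ → ℝ → ℂ → ℂ} {G : ℕ → ℝ → ℝ → ℂ → ℂ} (h : Stage N P X G₁ G) {c : List ℕ} {a : ℕ}
    (h2 : ∀ x ∈ a :: c, 2 ≤ x) (hc : (a :: c).IsChain (· < ·)) (hN : ∀ x ∈ a :: c, x < N) :
    ∀ᶠ κ in RV.nestF c.length,
      HEqv (gch G₁ G (chiX X) κ (a :: c) 0) (gch G₁ G (chiX X) κ (a :: c) 1) :=
  h.gateData.eventually_hEqv isCompact_Icc isPreconnected_Icc (List.cons_ne_nil _ _)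
    (okAll_okN h2 hc hN) (left_mem_Icc.mpr zero_le_one) (right_mem_Icc.mpr zero_le_one)

end Vale.Agent.P268.T
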